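import Mathlib
import Vale.Agent.P160R.Rate

/-! The exponential rate of the singularity probability. -/

namespace Vale.Agent.Results.P160.SingularityRate

open Filter
open scoped Topology

theorem result :
    let q : ℕ → ℝ := fun n =>
      (Nat.card {ω : Sym2 (Fin n) → Bool //
          (Matrix.of fun i j : Fin n => if ω s(i, j) then (1 : ℝ) else -1).det = 0} : ℝ) /
        (2 : ℝ) ^ Fintype.card (Sym2 (Fin n))
    Tendsto (fun n : ℕ => q n ^ ((n : ℝ)⁻¹)) atTop (𝓝 (1 / 2)) :=
  Vale.Agent.P160R.tendsto_qSing_root

end Vale.Agent.Results.P160.SingularityRate
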